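import Vale.Agent.P153.Bd5.B29
import Vale.Agent.P153.R2.SDAR.Mom

/-!
# P153-R2, block KPOS, flatness (F1)

If `κ' = 0` the smeared heights are small in all the domains inside a closed circuit of the plane
measure, at every scale where such circuits have probability bounded below.
-/

set_option autoImplicit false

namespace Vale.Agent.P153.R2.KPOS.H348

open Filter Topology Set MeasureTheory
open Vale.Agent.P153
open Vale.Agent.P153.F.Top (Om Cone Pol Alg ze cone_ze_nonneg s_mono vh)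
open Vale.Agent.P153.GFF (smear box pos ker Test Plane SpecOut)
open Vale.Agent.P153.F.X

/-- Second moments of neutral test functions are negligible. -/
theorem second0 {P : Measure (Pt → ℤ)} (hP : Plane P) (hS : SpecOut P 0) {f : ℝ × ℝ → ℝ}
    (hf : Test f) {ε : ℝ} (hε : 0 < ε) : ∀ᶠ δ : ℝ in 𝓝[>] 0,
      ∫ φ, (smear φ δ f) ^ 2 ∂P ≤ ε := by
  filter_upwards [MN.second_le hP hS hf hε] with δ h
  refine h.trans (le_of_eq ?_)
  ring

/-- The same, uniformly in the position. -/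
theorem neutral_mv0 {P : Measure (Pt → ℤ)} (hP : Plane P) (hS : SpecOut P 0) {f : ℝ × ℝ → ℝ}
    (hf : Smo f) (h0 : ∫ z, f z = 0) {ε : ℝ} (hε : 0 < ε) : ∀ᶠ δ : ℝ in 𝓝[>] 0, ∀ p : Pt,
        ∫⁻ φ, ENNReal.ofReal ((2 * evT (mv p (WT δ f)) φ) ^ (2 * 1)) ∂P ≤ ENNReal.ofReal ε := by
  have := hP.prob
  have h6 : ∀ᶠ δ : ℝ in 𝓝[>] 0, 0 < δ := by
    filter_upwards [self_mem_nhdsWithin] with x hx
    exact hx
  filter_upwards [second0 hP hS (f := f) ⟨hf.1, hf.2, h0⟩ (ε := ε / 4) (by positivity), h6]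
    with δ h1 hδ p
  rw [lintegral_mv hP.shift (by rw [mass_WT hf hδ, h0]) p 1]
  have hl : ∀ φ : Pt → ℤ, F.PL.lin (WT δ f).support (WT δ f) φ = evT (WT δ f) φ := fun φ => rfl
  have hw' : ∑ v ∈ (WT δ f).support, WT δ f v = 0 := by
    have := mass_WT hf hδ
    rw [h0] at this
    exact this
  obtain ⟨M, hM⟩ := F.PL.lin_bdd hP.lip hw'
  simp only [hl] at hM
  have hXi : Integrable (fun φ => (2 * evT (WT δ f) φ) ^ (2 * 1)) P := by
    refine Integrable.mono' (integrable_const ((2 * M) ^ (2 * 1)))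
      (((measurable_evT _).const_mul 2).pow_const _).aestronglyMeasurable ?_
    filter_upwards [hM] with φ hφ
    rw [norm_pow, Real.norm_eq_abs, abs_mul, abs_two]
    exact pow_le_pow_left₀ (by positivity) (by linarith) _
  rw [← ofReal_integral_eq_lintegral_ofReal hXi
    (Filter.Eventually.of_forall fun φ => Even.pow_nonneg (even_two_mul 1) _)]
  refine ENNReal.ofReal_le_ofReal ?_
  have e : ∀ φ : Pt → ℤ, (2 * evT (WT δ f) φ) ^ (2 * 1) = 4 * smear φ δ f ^ 2 := by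
    intro φ
    rw [mul_one, mul_pow, evT_WT hf hδ]
    norm_num
  simp only [e]
  rw [integral_const_mul]
  linarith

/-- **Flatness near a circuit of the plane measure.** -/
theorem flat_II {P : Measure (Pt → ℤ)} (hP : Plane P) (hS : SpecOut P 0)
    (hlow : S_low P) (hint : S_int P) (K : ℝ) (hK : 0 < K) (ε : ℝ) (hε : 0 < ε) :
    ∃ s₀ : ℤ, 1 ≤ s₀ ∧ ∀ s, s₀ ≤ s → ∀ (p : Pt)
    (u : Pt →₀ ℝ), (∀ v, 0 ≤ u v ∧ u v ≤ K / (s : ℝ) ^ 2) →
    (∀ v, u v ≠ 0 → |((v.1 - p.1 : ℤ) : ℝ)| ≤ K * s ∧ |((v.2 - p.2 : ℤ) : ℝ)| ≤ K * s) →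
    II P (F.X.ind (Zr p s)) (fun ω => LU u ω ^ 2) ≤ ε := by
  have := hP.prob
  -- the bumps
  obtain ⟨β, hβ⟩ : ∃ β : ContDiffBump (0 : ℝ × ℝ), β.rIn = 2 * K + 2 ∧ β.rOut = 2 * K + 3 :=
    ⟨⟨2 * K + 2, 2 * K + 3, by linarith, by linarith⟩, rfl, rfl⟩
  obtain ⟨i, hi, hi1, his⟩ := exists_bump (0 : ℝ × ℝ) (ρ := 1 / 4) (by norm_num)
  obtain ⟨o, ho, ho1, hos⟩ := exists_bump ((4, 0) : ℝ × ℝ) (ρ := 1 / 4) (by norm_num)
  set φ : ℝ × ℝ → ℝ := fun x => 2 * K * β x with hφ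
  have hφS : Smo φ := ⟨contDiff_const.mul β.contDiff, β.hasCompactSupport.mul_left⟩
  set I : ℝ := ∫ x, φ x with hI
  have hf1 : Smo fun x => φ x - I * i x := hφS.sub (hi.mul I)
  have hf2 : Smo fun x => i x - o x := hi.sub ho
  have z1 : ∫ x, (φ x - I * i x) = 0 := by
    have hIi : ∫ x, I * i x = I := by rw [integral_const_mul, hi1, mul_one]
    rw [integral_sub hφS.int (hi.mul I).int, hIi, hI, sub_self]
  have z2 : ∫ x, (i x - o x) = 0 := by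
    rw [integral_sub hi.int ho.int, hi1, ho1, sub_self]
  set e' : ℝ := ε / (12 * (1 + I ^ 2)) with he'
  have he0 : 0 < e' := by positivity
  have e1 := neutral_mv0 hP hS hf1 z1 he0
  have e2 := neutral_mv0 hP hS hf2 z2 he0
  have hlim : Tendsto (fun s : ℤ => 1 / (s : ℝ)) atTop (𝓝[>] 0) := by
    rw [tendsto_nhdsWithin_iff]
    constructor
    · exact tendsto_const_nhds.div_atTop tendsto_intCast_atTop_atTop
    · filter_upwards [eventually_gt_atTop 0] with s hs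
      have : (0 : ℝ) < s := by exact_mod_cast hs
      exact Set.mem_Ioi.2 (by positivity)
  obtain ⟨s₀, hs₀⟩ := eventually_atTop.1 ((hlim.eventually e1).and (hlim.eventually e2))
  refine ⟨max s₀ 20, le_trans (by norm_num) (le_max_right _ _), fun s hs p u hu1 hu2 => ?_⟩
  obtain ⟨a1, a2⟩ := hs₀ s ((le_max_left _ _).trans hs)
  have hs20 : 20 ≤ s := (le_max_right _ _).trans hs
  have hs1 : 1 ≤ s := by omega
  have hsR : (20 : ℝ) ≤ s := by exact_mod_cast hs20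
  have hδ0 : (0 : ℝ) < 1 / s := by positivity
  have hΘ : Fn Set.univ (F.X.ind (Zr p s)) := by
    have h1 := (s_loc p s hs1).2
    exact ⟨h1.nonneg, by
      obtain ⟨Λ, h2, h3⟩ := h1.loc
      exact ⟨Λ, fun w _ => Set.mem_univ _, h3⟩, h1.pin⟩
  have hβ0 : ∀ x, 0 ≤ φ x := fun x => by
    rw [hφ]
    have := β.nonneg (x := x)
    positivity
  have hdom : ∀ v, u v ≤ mv p (WT (1 / (s : ℝ)) φ) v := by
    intro v
    rw [mv_apply]
    by_cases hv : u v = 0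
    · rw [hv]
      exact WT_nonneg hφS.2 hδ0 hβ0 _
    · obtain ⟨k1, k2⟩ := hu2 v hv
      rw [WT_const hφS.2 hδ0 (c := 2 * K) (fun w hw1 hw2 => ?_)]
      · refine (hu1 v).2.trans ?_
        have e : (1 / (s : ℝ)) ^ 2 * (2 * K * (√3 / 2)) = √3 * (K / (s : ℝ) ^ 2) := by
          field_simp
        rw [e]
        have : 0 ≤ K / (s : ℝ) ^ 2 := by positivity
        nlinarith [sq3.1]
      · have h1 : β ((1 / (s : ℝ)) • (w + pos (v - p))) = 1 := by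
          apply β.one_of_mem_closedBall
          rw [mem_closedBall_zero_iff, hβ.1, norm_smul, Real.norm_eq_abs, abs_of_pos hδ0,
            one_div, inv_mul_le_iff₀ (by linarith)]
          refine (norm_add_le _ _).trans ?_
          have n1 : ‖w‖ ≤ 2 := by
            rw [Prod.norm_def, max_le_iff, Real.norm_eq_abs, Real.norm_eq_abs]
            exact ⟨hw1, by linarith⟩
          have n2 : ‖pos (v - p)‖ ≤ 3 / 2 * (K * s) := by
            rw [Prod.norm_def, max_le_iff, Real.norm_eq_abs, Real.norm_eq_abs]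
            unfold pos
            simp only [Prod.fst_sub, Prod.snd_sub]
            constructor
            · refine (abs_add_le _ _).trans ?_
              rw [abs_div, abs_two]
              linarith
            · rw [abs_mul, abs_of_pos (by positivity : (0 : ℝ) < √3 / 2)]
              nlinarith [sq3.2, abs_nonneg ((v.2 - p.2 : ℤ) : ℝ)]
          nlinarith
        rw [hφ]
        simp only
        rw [h1, mul_one]
  refine (II_mono hlow hint hΘ (fun v => (hu1 v).1) hdom 2).trans ?_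
  have hfin : 2 ^ (2 * 1) * (3 * e' + I ^ (2 * 1) * (3 * e')) = ε := by
    rw [he']
    field_simp
    ring
  rw [← hfin]
  refine II_le hs1 (fun ω => sq_nonneg _) (hfin ▸ hε.le) ?_
  simp only [LU_vm]
  have q1 : mv p (WT (1 / (s : ℝ)) fun x => φ x - I * i x) =
      mv p (WT (1 / (s : ℝ)) φ) - I • mv p (WT (1 / (s : ℝ)) i) := by
    rw [WT_sub hφS (hi.mul I) hδ0, mv_sub, WT_smul hi.2 hδ0, mv_smul]
  have q2 : mv p (WT (1 / (s : ℝ)) fun x => i x - o x) =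
      mv p (WT (1 / (s : ℝ)) i) - mv p (WT (1 / (s : ℝ)) o) := by
    rw [WT_sub hi ho hδ0, mv_sub]
  refine core (Vale.Agent.P153.F.gb_of_plane hP) hs1 (a := mv p (WT (1 / (s : ℝ)) i))
    (b := mv p (WT (1 / (s : ℝ)) o)) (m := I) ?_ ?_ ?_ ?_ 1 he0.le he0.le ?_ ?_
  · intro v hv
    rw [Finsupp.mem_support_iff, mv_apply] at hv
    have h1 := WT_in hi.2 hs20 his hv
    have h2 : |(v - p).1 - 0| ≤ s := h1.1
    have h3 : |(v - p).2 - 0| ≤ s := h1.2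
    rw [sub_zero] at h2 h3
    exact ⟨h2, h3⟩
  · intro v hv hmem
    rw [Finsupp.mem_support_iff, mv_apply] at hv
    refine WT_out ho.2 hs20 hos hv ?_
    have h2 : |v.1 - p.1| ≤ 2 * s := hmem.1
    have h3 : |v.2 - p.2| ≤ 2 * s := hmem.2
    refine ⟨?_, ?_⟩
    · simpa using h2
    · simpa using h3
  · rw [← q1, massT_mv, mass_WT hf1 hδ0, z1]
  · rw [← q2, massT_mv, mass_WT hf2 hδ0, z2]
  · rw [← q1]
    exact a1 p
  · rw [← q2]
    exact a2 p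

theorem cone_LU {u : Pt →₀ ℝ} (hu : ∀ v, 0 ≤ u v) (n : ℕ) : Cone (fun ω => LU u ω ^ n) :=
  pol_LU_pow (Q := fun c => 0 ≤ c) hu n

/-- The circuits of `Zr` are far from the inner box. -/
theorem fn_zr {p : Pt} {s : ℤ} (hs : 1 ≤ s) {W : Finset Pt} (hF : (W : Set Pt) ⊆ bx p (s - 2)) :
    Fn (tE (W : Set Pt))ᶜ (F.X.ind (Zr p s)) := by
  have h1 := (s_loc p s hs).2
  refine ⟨h1.nonneg, ?_, h1.pin⟩
  obtain ⟨Λ, h2, h3⟩ := h1.loc
  refine ⟨Λ, fun w hw h4 => (h2 w hw).2 ?_, h3⟩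
  obtain ⟨x, hx, y, hxy, rfl⟩ := h4
  have hx' := hF hx
  refine ⟨x, ⟨hx'.1.trans (by omega), hx'.2.trans (by omega)⟩, y, ?_, hxy, rfl⟩
  obtain ⟨a1, a2⟩ := hx'
  rw [Topo.adj_iff] at hxy
  rw [abs_le] at a1 a2
  exact ⟨abs_le.2 (by omega), abs_le.2 (by omega)⟩

/-- The probability of a circuit at level `0`. -/
theorem zr_ge {Q : Measure A.Om} (hQ : A.IsQ Q) (hint : S_int (Q.map A.rc)) {c : ℝ} {r : ℤ}
    (hr : 1 ≤ r) {p : Pt} (h : c ≤ F.RSW.pW Q (F.RSW.Ann p.1 p.2 r)) :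
    c ≤ II (Q.map A.rc) (F.X.ind (Zr p r)) (fun _ => 1) := by
  have := hQ.prob
  obtain ⟨e1, e2⟩ := PosT.II_E hint (E' := Zr p r) (F.RSW.IL_Ann p.1 p.2 r).2 (fun B => Iff.rfl)
    (PosT.not_ann _ _ _)
  rw [e1, ← ENNReal.ofReal_le_iff_le_toReal e2]
  exact (ENNReal.ofReal_le_ofReal h).trans
    (PosT.muT_ge hQ (F.RSW.IL_Ann _ _ _) fun S lev hl hA => F.RSW.Ann.lev hl (by omega) hA)

/-- **Flatness**, in the domains inside the circuit. -/
theorem flat_ze {P : Measure (Pt → ℤ)} (hP : Plane P) (hS : SpecOut P 0)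
    (hint : S_int P) {K : ℝ} (hK : 0 < K) {c : ℝ} (hc : 0 < c) {ε : ℝ} (hε : 0 < ε) :
    ∃ s₀ : ℤ, 1 ≤ s₀ ∧ ∀ s, s₀ ≤ s → ∀ p : Pt, c ≤ II P (F.X.ind (Zr p s)) (fun _ => 1) →
    ∀ W : Finset Pt, (W : Set Pt) ⊆ bx p (s - 2) →
    ∀ u : Pt →₀ ℝ, (∀ v, 0 ≤ u v ∧ u v ≤ K / (s : ℝ) ^ 2) →
    (∀ v, u v ≠ 0 → |((v.1 - p.1 : ℤ) : ℝ)| ≤ K * s ∧ |((v.2 - p.2 : ℤ) : ℝ)| ≤ K * s) →
    ze W (fun ω => LU u ω ^ 2) ≤ ε := by
  have hlow := s_low hP hint
  obtain ⟨s₀, h1, h2⟩ := flat_II hP hS hlow hint K hK (ε * c) (by positivity)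
  refine ⟨s₀, h1, fun s hs p hp W hF u hu1 hu2 => ?_⟩
  have h3 := h2 s hs p u hu1 hu2
  have hC := cone_LU (u := u) (fun v => (hu1 v).1) 2
  have h4 := hlow W (F.X.ind (Zr p s)) _ (fn_zr (h1.trans hs) hF) hC
  have h5 : 0 ≤ ze W (fun ω => LU u ω ^ 2) := cone_ze_nonneg s_mono W hC
  have h6 : ze W (fun ω => LU u ω ^ 2) * c ≤ ε * c :=
    (mul_le_mul_of_nonneg_left hp h5).trans (h4.trans h3)
  exact le_of_mul_le_mul_right h6 hc

/-- **Flatness**, for the laws `Cfg V (frd V 0)`. -/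
theorem flat_Ex {P : Measure (Pt → ℤ)} (hP : Plane P) (hS : SpecOut P 0)
    (hint : S_int P) {K : ℝ} (hK : 0 < K) {c : ℝ} (hc : 0 < c) {ε : ℝ} (hε : 0 < ε) :
    ∃ s₀ : ℤ, 1 ≤ s₀ ∧ ∀ s, s₀ ≤ s → ∀ p : Pt, c ≤ II P (F.X.ind (Zr p s)) (fun _ => 1) →
    ∀ V : Set Pt, V.Finite → V ⊆ bx p (s - 2) →
    ∀ u : Pt →₀ ℝ, (∀ v, 0 ≤ u v ∧ u v ≤ K / (s : ℝ) ^ 2) → (∀ v, u v ≠ 0 → v ∈ V) →
    (∀ v, u v ≠ 0 → |((v.1 - p.1 : ℤ) : ℝ)| ≤ K * s ∧ |((v.2 - p.2 : ℤ) : ℝ)| ≤ K * s) →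
    Ex (Cfg V (frd V 0)) (fun h => (u.sum fun v a => a * (h v : ℝ)) ^ 2) ≤ ε := by
  classical
  obtain ⟨s₀, h1, h2⟩ := flat_ze hP hS hint hK hc hε
  refine ⟨s₀, h1, fun s hs p hp V hV hVb u hu1 hu3 hu2 => ?_⟩
  have h3 := h2 s hs p hp hV.toFinset (by rw [hV.coe_toFinset]; exact hVb) u hu1 hu2
  refine le_trans (le_of_eq ?_) h3
  unfold F.Top.ze
  rw [← Ex_eq_ev', NH.free_eq, hV.coe_toFinset]
  refine Ex_congr fun h _ => ?_
  congr 1
  unfold LU Finsupp.sum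
  refine Finset.sum_congr rfl fun v hv => ?_
  have hvV : v ∈ hV.toFinset := by
    rw [hV.mem_toFinset]
    exact hu3 v (Finsupp.mem_support_iff.1 hv)
  show u v * (h v : ℝ) = u v * (if v ∈ hV.toFinset then (h v : ℝ) else 0)
  rw [if_pos hvV]

end Vale.Agent.P153.R2.KPOS.H348
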