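import Vale.Agent.P153.R2.KPOS.H348.Flat
import Vale.Agent.P153.R2.KPOS.H61.Glue

/-!
# P153-R2, KPOS, block FLAT: flatness at dyadic fine scales, with the quantifiers of the chain
-/

set_option autoImplicit false

namespace Vale.Agent.P153.R2.KPOS.H348

open Set Relation MeasureTheory
open Vale.Agent.P153 Vale.Agent.P153.R2
open Vale.Agent.P153.GFF (Plane SpecOut)
open Vale.Agent.P153.F.X (evT massT)
open Vale.Agent.P153.F.RSW (Ann)
open Vale.Agent.P153.R2.KPOS.Tr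
open Vale.Agent.P153.R2.KPOS.TV (esc)
open Vale.Agent.P153.R2.KPOS.H469 (FineS)
open Vale.Agent.P153.R2.KPOS.H61 (bump bump_apply bump_nonneg bump_le bump_supp bump_mass)

/-- **Flatness (F1)** if the spectral constant vanishes. -/
theorem fl {Q : Measure A.Om} (hQ : A.IsQ Q) (hP : Plane (Q.map A.rc))
    (hS : SpecOut (Q.map A.rc) 0) : H61.Fl Q := by
  intro c hc B ε hε
  obtain ⟨s₀, h1, h2⟩ := flat_Ex hP hS (F.X.s_int hP) (K := 4 ^ B) (by positivity) hc hε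
  refine ⟨s₀.toNat, fun g hg hF n hn0 hng hgB V hnV hV => ?_⟩
  have e0 : (g : ℤ) < 2 ^ g := by exact_mod_cast Nat.lt_two_pow_self
  have e1 : s₀ ≤ 2 ^ g := by omega
  have hVf : V.Finite := (PLAN.bx_finite _ _).subset hV
  have e2 : (1 : ℝ) ≤ 4 ^ B := one_le_pow₀ (by norm_num)
  have hz : c ≤ F.X.II (Q.map A.rc) (F.X.ind (F.X.Zr (0 : Pt) (2 ^ g))) (fun _ => 1) := by
    refine zr_ge hQ (F.X.s_int hP) (h1.trans e1) ?_
    have := hF.1 0 0
    rw [Nat.cast_pow] at this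
    exact this
  have e5 : ((2 : ℤ) ^ g : ℝ) ≤ 2 ^ B * (2 * n + 1) := by exact_mod_cast hgB
  refine h2 (2 ^ g) e1 0 hz V hVf hV (bump 0 n) (fun v => ⟨bump_nonneg _ _ _, ?_⟩) (fun v hv => ?_)
    fun v hv => ?_
  · refine (bump_le _ _ _).trans ?_
    have e6 : (0 : ℝ) < 2 * n + 1 := by
      have : (0 : ℝ) ≤ n := by exact_mod_cast hn0
      linarith
    have e7 : (0 : ℝ) < ((2 ^ g : ℤ) : ℝ) := by positivity
    rw [div_le_div_iff₀ (by positivity) (by positivity), one_mul]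
    have e8 : ((2 ^ g : ℤ) : ℝ) ≤ 2 ^ B * (2 * n + 1) := by exact_mod_cast hgB
    calc ((2 ^ g : ℤ) : ℝ) ^ 2 ≤ (2 ^ B * (2 * n + 1)) ^ 2 := pow_le_pow_left₀ e7.le e8 2
      _ = 4 ^ B * (2 * n + 1) ^ 2 := by
        rw [mul_pow, ← pow_mul, mul_comm B 2, pow_mul]
        norm_num
  · exact hnV (bump_supp _ _ (Finsupp.mem_support_iff.2 hv))
  · have h3 := bump_supp (0 : Pt) n (Finsupp.mem_support_iff.2 hv)
    have e9 : ((n : ℤ) : ℝ) ≤ 4 ^ B * ((2 ^ g : ℤ) : ℝ) := by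
      have : ((n : ℤ) : ℝ) ≤ ((2 ^ g : ℤ) : ℝ) := by exact_mod_cast hng
      refine this.trans (le_mul_of_one_le_left (by positivity) e2)
    rw [← Int.cast_abs, ← Int.cast_abs]
    exact ⟨le_trans (by exact_mod_cast h3.1) e9, le_trans (by exact_mod_cast h3.2) e9⟩

end Vale.Agent.P153.R2.KPOS.H348
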